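import Vale.Agent.P280W.Nop

/-!
# P280W: fibres of dimension three over a base of dimension five
-/

open scoped Manifold ContDiff Topology Matrix
open Set Filter
open Vale.Agent.P272.K Vale.Agent.P285.H281.FD Vale.Agent.P281Z
open Vale.Agent.P277.HD (pull)
open Vale.Agent.P277 (Bd.inv)
open Vale.Agent.P280Z Vale.Agent.P280Z.Rh Vale.Agent.P280Z.Ma Vale.Agent.P280Z.Pr
open Vale.Agent.P280Z.Hr (tdx coeff_td)

noncomputable section

namespace Vale.Agent.P280W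

namespace B8

section alg
variable {B : Type} [CommRing B] [Algebra ℝ B]

theorem tay {x : B} (h : x ^ 6 = 0) (s : ℝ) (z a b c e : B) :
    tdx (s • x + z) a b c e 8 = tdx z a b c e 8 + s • (x * tdx z a b c e 7) +
      (s ^ 2 / 2) • (x ^ 2 * tdx z a b c e 6) + (s ^ 3 / 6) • (x ^ 3 * tdx z a b c e 5) +
      (s ^ 4 / 24) • (x ^ 4 * tdx z a b c e 4) + (s ^ 5 / 120) • (x ^ 5 * tdx z a b c e 3) := by
  have k : tdx (s • x + z) a b c e 8 = tdx z a b c e 8 + s • (x * tdx z a b c e 7) +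
      (s ^ 2 / 2) • (x ^ 2 * tdx z a b c e 6) + (s ^ 3 / 6) • (x ^ 3 * tdx z a b c e 5) +
      (s ^ 4 / 24) • (x ^ 4 * tdx z a b c e 4) + (s ^ 5 / 120) • (x ^ 5 * tdx z a b c e 3) +
      x ^ 6 * ((s ^ 6 / 720) • tdx z a b c e 2 + (s ^ 7 / 5040) • (x * z) +
        (s ^ 8 / 40320) • x ^ 2) := by
    simp only [tdx]
    algebra
  rw [k, h, zero_mul, add_zero]

theorem four {x q r : B} (h : x * q = 0) (h' : x * r = 0) (t : ℕ → B) (c e : B) :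
    x * tdx ((1 / 2 : ℝ) • t 1) (-(1 / 24 : ℝ) • (t 2 + q)) ((1 / 2880 : ℝ) • (t 4 + r)) c e 4 =
      (1 / 5760 : ℝ) • (td4 t * x) := by
  have k : x * tdx ((1 / 2 : ℝ) • t 1) (-(1 / 24 : ℝ) • (t 2 + q)) ((1 / 2880 : ℝ) • (t 4 + r))
      c e 4 = (1 / 5760 : ℝ) • (td4 t * x) + x * q * (-(1 / 192 : ℝ) • t 1 ^ 2 +
        (1 / 576 : ℝ) • t 2 + (1 / 1152 : ℝ) • q) + (1 / 2880 : ℝ) • (x * r) := by
    simp only [tdx, td4]
    algebra
  rw [k, h, h', zero_mul, add_zero, smul_zero, add_zero]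

theorem five (s : ℝ) (x a b c e : B) : tdx (s • x) a b c e 5 =
    s • (x * ((1 / 2 : ℝ) • a ^ 2 + b)) + (s ^ 3 / 6) • (x ^ 3 * a) + (s ^ 5 / 120) • x ^ 5 := by
  simp only [tdx]
  algebra

end alg

variable {T : CT}

theorem grr (th : Th T) {V : Mf 8} {Y : Mf 5} {π : V.X → Y.X} (h : Sub 8 5 π) (fV : Gm.Fa T V)
    (fY : Gm.Fa T Y) (hc : ∀ b, IsConnected (π ⁻¹' {b})) {A : Bd Y.X} (lA : IsLB 5 A)
    (nA : T.Nn Y (T.c1 Y A)) :
    T.int V (td4 (tr T h.hol) * T.pull h.hol (cX T Y + (2 : ℝ) • T.c1 Y A) ^ 4) = 0 := by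
  have hT := th.ok
  have kY : T.Kc Y (cX T Y) := by rw [cX, hT.ch.tan]; exact fY
  have big : ∀ k a, 5 < k → T.Dg Y k a → T.pull h.hol a = 0 := fun k a hk ha => by
    rw [← ha, hT.rg.pr_zero _ _ _ hk, map_zero]
  have du : T.Dg Y 1 (cX T Y + (2 : ℝ) • T.c1 Y A) := by
    rw [CT.Dg, map_add, map_smul, dg_cX hT Y, hT.c1.deg Y A]
  have x6 : T.pull h.hol (cX T Y + (2 : ℝ) • T.c1 Y A) ^ 6 = 0 := by
    rw [← map_pow]
    exact big 6 _ (by norm_num) (dg_pow hT du 6)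
  have q2 : ∀ k, T.pull h.hol (cX T Y + (2 : ℝ) • T.c1 Y A) ^ 4 *
      T.pull h.hol (T.ps Y (VB.tan 5 Y.X) (k + 2)) = 0 := fun k => by
    rw [← map_pow, ← map_mul]
    exact big (4 + (k + 2)) _ (by omega)
      (hT.rg.dg_mul _ _ _ _ _ (dg_pow hT du 4) (hT.ch.deg _ _ _))
  have p2 : ∀ k, T.ps V (VB.tan 8 V.X) k =
      tr T h.hol k + T.pull h.hol (T.ps Y (VB.tan 5 Y.X) k) := fun k => (sub_add_cancel _ _).symm
  have rr : ∀ k : ℕ, T.RR V (T.pull h.hol ((k : ℝ) • cX T Y + (2 * k + 1 : ℝ) • T.c1 Y A)) =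
      T.RR Y ((k : ℝ) • cX T Y + (2 * k + 1 : ℝ) • T.c1 Y A) := by
    intro k
    have l0 := lb_pow (lb_inv (lb_can Y)) k
    have l2 := lb_pow lA (2 * k + 1)
    have l1 := lb_mul l0 l2
    have c1 : T.c1 Y (((Bd.inv (Bd.can 5 Y.X)).pow k).mul (A.pow (2 * k + 1))) =
        (k : ℝ) • cX T Y + (2 * k + 1 : ℝ) • T.c1 Y A := by
      rw [hT.c1.mul Y _ _ l0 l2, hT.c1.pow Y _ k (lb_inv (lb_can Y)), c1_acan hT,
        hT.c1.pow Y _ _ lA]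
      push_cast
      rfl
    have c2 := hT.c1.pull h.hol _ l1
    have n1 := nn_add hT (nn_smul hT (kc_nn hT kY) (Nat.cast_nonneg k))
      (nn_smul hT nA (c := 2 * k + 1) (by positivity))
    rw [← c1, ← c2, ← th.hrr V _ (h.hol.lb l1), ← th.hrr Y _ l1, h0p_of Po.desc π _ h hc l1]
    · rw [Ld.Ap, c1, sub_eq_neg_add]
      exact kc_add hT fY n1
    · rw [Ld.Ap, c2, c1, sub_eq_neg_add]
      exact kc_add hT fV (nn_pull hT h.hol n1)
  obtain ⟨A0, A1, A2, A3, A5, B1, B3, B5, e⟩ : ∃ A0 A1 A2 A3 A5 B1 B3 B5 : ℝ, ∀ k : ℕ,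
      A0 + (k + 1 / 2) * A1 + (k + 1 / 2) ^ 2 / 2 * A2 + (k + 1 / 2) ^ 3 / 6 * A3 +
        (k + 1 / 2) ^ 4 / 24 * (1 / 5760 * T.int V (td4 (tr T h.hol) *
          T.pull h.hol (cX T Y + (2 : ℝ) • T.c1 Y A) ^ 4)) + (k + 1 / 2) ^ 5 / 120 * A5 =
      (k + 1 / 2) * B1 + (k + 1 / 2) ^ 3 / 6 * B3 + (k + 1 / 2) ^ 5 / 120 * B5 :=
    ⟨_, _, _, _, _, _, _, _, fun k => by
    have e0 : (k : ℝ) • cX T Y + (2 * k + 1 : ℝ) • T.c1 Y A +
        (1 / 2 : ℝ) • T.ps Y (VB.tan 5 Y.X) 1 =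
        ((k : ℝ) + 1 / 2) • (cX T Y + (2 : ℝ) • T.c1 Y A) := by
      unfold cX
      module
    have e1 : T.pull h.hol ((k : ℝ) • cX T Y + (2 * k + 1 : ℝ) • T.c1 Y A) +
        (1 / 2 : ℝ) • T.ps V (VB.tan 8 V.X) 1 =
        ((k : ℝ) + 1 / 2) • T.pull h.hol (cX T Y + (2 : ℝ) • T.c1 Y A) +
          (1 / 2 : ℝ) • tr T h.hol 1 := by
      rw [← map_smul, ← e0, p2 1, map_add _ _ ((1 / 2 : ℝ) • _), map_smul _ (1 / 2 : ℝ), smul_add]
      abel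
    have e2 := rr k
    rw [CT.RR, CT.RR, coeff_td _ _ (by norm_num), coeff_td _ _ (by norm_num), e1, e0,
      five, tay x6, p2 2, p2 4, four (q2 0) (q2 2)] at e2
    simpa only [map_add, map_smul, smul_eq_mul] using e2⟩
  have e0 := e 0
  have e1 := e 1
  have e2 := e 2
  have e3 := e 3
  have e4 := e 4
  have e5 := e 5
  push_cast at e0 e1 e2 e3 e4 e5
  linarith

theorem fac {n : ℕ} {V : Mf n} (B : Bas T V) {R S : Set B.J} (h : R ⊆ S) :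
    ∃ q : (B.Q R).Y.X → (B.Q S).Y.X, Sub (B.Q R).y (B.Q S).y q ∧
      ∀ x, (B.Q S).π x = q ((B.Q R).π x) := by
  let Q := B.Q R
  let Q' := B.Q S
  have e1 : ∀ x, Q'.π (Function.surjInv Q.onto (Q.π x)) = Q'.π x := fun x =>
    (Q'.rel _ _).2 (((Q.rel _ _).1 (Function.surjInv_eq Q.onto _)).mono
      fun _ _ ⟨i, hi, k⟩ => ⟨i, h hi, k⟩)
  have e2 : (fun x => Q'.π (Function.surjInv Q.onto (Q.π x))) = Q'.π := funext e1
  have hq : HolM Q.y Q'.y fun b => Q'.π (Function.surjInv Q.onto b) := fun b => by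
    obtain ⟨x, rfl⟩ := Q.onto b
    exact (Q.sub.sbm x).desc (Q.sub.hol.at x) (g := fun b => Q'.π (Function.surjInv Q.onto b))
      (e2.symm ▸ Q'.sub.hol.at x)
  refine ⟨_, ⟨hq, fun b => ?_⟩, fun x => (e1 x).symm⟩
  obtain ⟨x, rfl⟩ := Q.onto b
  exact Sbm.of_comp (hq.at _) (Q.sub.hol.at x) (e2.symm ▸ Q'.sub.sbm x)

theorem key (th : Th T) {y z : ℕ} (hy : y = 5) (hz : z = 3) {V : Mf 8} {Y : Mf y} {Z : Mf z}
    {π : V.X → Y.X} {q : Y.X → Z.X} (h : Sub 8 y π) (k : Sub y z q) (fV : Fano 8 V.X)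
    (fY : Fano y Y.X) (fZ : Fano z Z.X) (hq : Function.Surjective q)
    (hc : ∀ b, IsConnected (π ⁻¹' {b})) {u : T.H Y} {p α : ℝ}
    (e1 : (T.push π (td4 (tr T h.hol)) - p • u) * T.pull k.hol (cX T Z) ^ 3 = 0)
    (e2 : (cX T Y - α • u) * T.pull k.hol (cX T Z) ^ 3 = 0) : p = 0 := by
  subst hy hz
  have hT := th.ok
  obtain ⟨cZ, kZ⟩ := (fano_iff hT Z).1 fZ
  obtain ⟨cY, kY⟩ := (fano_iff hT Y).1 fY
  have a4 : T.pull k.hol (cX T Z) ^ 4 = 0 := by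
    rw [← map_pow, ← dg_pow hT (dg_cX hT Z) 4, hT.rg.pr_zero _ _ _ (by norm_num), map_zero]
  have g : ∀ m : ℕ, T.int Y (T.push π (td4 (tr T h.hol)) *
      (cX T Y + (2 * m : ℝ) • T.pull k.hol (cX T Z)) ^ 4) = 0 := fun m => by
    have l0 := k.hol.lb (lb_inv (lb_can Z))
    have c1 : T.c1 Y ((pull q (Bd.inv (Bd.can 3 Z.X))).pow m) =
        (m : ℝ) • T.pull k.hol (cX T Z) := by
      rw [hT.c1.pow Y _ m l0, hT.c1.pull k.hol _ (lb_inv (lb_can Z)), c1_acan hT]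
    have := grr th h (fa_of hT fV) (fa_of hT fY) hc (lb_pow l0 m)
      (c1 ▸ nn_smul hT (nn_pull hT k.hol kZ) m.cast_nonneg)
    rwa [c1, smul_smul, ← map_pow, ← hT.pu.int h, hT.pu.proj h] at this
  obtain ⟨D, hD, eD⟩ := push_vol hT k (d := 2) rfl hq cZ kY
  have pos : 0 < T.int Y (cX T Y ^ 2 * T.pull k.hol (cX T Z) ^ 3) := by
    rw [← map_pow, ← hT.pu.int k, hT.pu.proj k, eD, ← Algebra.smul_def, map_smul]
    exact mul_pos hD (kc_vol hT kZ (Classical.arbitrary _))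
  generalize T.push π (td4 (tr T h.hol)) = P at e1 g
  generalize T.pull k.hol (cX T Z) = a at e1 e2 a4 g pos
  generalize cX T Y = c at e2 g pos
  have ex : ∀ s : ℝ, P * (c + s • a) ^ 4 = P * c ^ 4 + (4 * s) • (P * c ^ 3 * a) +
      (6 * s ^ 2) • (P * c ^ 2 * a ^ 2) + (4 * s ^ 3) • (p • (u * c * a ^ 3)) := fun s => by
    simp only [Algebra.smul_def, map_mul, map_pow, map_ofNat] at e1 ⊢
    linear_combination (algebraMap ℝ _ s) ^ 4 * P * a4 + 4 * (algebraMap ℝ _ s) ^ 3 * c * e1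
  have e3 : c ^ 2 * a ^ 3 = α • (u * c * a ^ 3) := by
    simp only [Algebra.smul_def] at e2 ⊢
    linear_combination c * e2
  have g0 := g 0
  have g1 := g 1
  have g2 := g 2
  have g3 := g 3
  rw [ex] at g0 g1 g2 g3
  simp only [map_add, map_smul, smul_eq_mul] at g0 g1 g2 g3
  push_cast at g0 g1 g2 g3
  rw [e3, map_smul, smul_eq_mul] at pos
  have : p * T.int Y (u * c * a ^ 3) = 0 := by linarith
  exact (mul_eq_zero.1 this).resolve_right fun e => by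
    rw [e, mul_zero] at pos
    exact lt_irrefl _ pos

theorem half (th : Th T) {V : Mf 8} (B : Bas T V) (cl : Cls 8 V) {i j k : B.J} (ij : i ≠ j)
    (ik : i ≠ k) (jk : j ≠ k) (all : ∀ l, l = i ∨ l = j ∨ l = k) (dk : (B.Q {k}).d = 3)
    (yj : (B.Q {j}ᶜ).y = 3) {P : T.H (B.Q {k}).Y}
    (eP : P = T.push (B.Q {k}).π (td4 (tr T (B.Q {k}).sub.hol))) (dP : T.Dg _ 1 P) :
    (B.F i).dg (T.pull (B.Q {k}).sub.hol P) = 0 := by
  have hT := th.ok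
  obtain ⟨cV, kV⟩ := (fano_iff hT V).1 cl.1
  have dim := (B.Q {k}).dim
  obtain ⟨q, hq, eq⟩ := fac B (R := {k}) (S := {j}ᶜ) (by rintro _ rfl; exact jk.symm)
  obtain ⟨u, -, eu⟩ := (B.Q {k}).ex1 hT (hT.po.deg (B.nn i)) fun l hl =>
    (B.dual l i).trans (if_neg fun e : l = i => ik (e.symm.trans hl))
  have z : ∀ b, T.Dg _ 1 b → (b - (B.F i).dg (T.pull (B.Q {k}).sub.hol b) • u) *
      T.pull hq.hol (cX T (B.Q {j}ᶜ).Y) ^ 3 = 0 := fun b hb => by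
    refine pull_inj hT (B.Q {k}).sub dim (B.Q {k}).onto ((B.Q _).conn cV)
      ((hT.po.kah V).2 ⟨_, kV⟩) ?_
    rw [map_mul, map_pow, ← hT.rg.pull_comp (B.Q {k}).sub.hol hq.hol (B.Q {j}ᶜ).sub.hol eq,
      map_sub, map_smul, ← eu, ← pow_one (_ - _)]
    refine PosjH.two (B.Q {j}ᶜ) hT ?_ (dg_pull hT _ (dg_cX hT _)) (fun l hl => ?_)
      (fun l hl => (B.Q {j}ᶜ).dg_pull hT hl (dg_cX hT _)) (by omega)
    · rw [CT.Dg, map_sub, map_smul, dg_pull hT _ hb, hT.po.deg (B.nn i)]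
    rw [map_sub, map_smul, B.dual, smul_eq_mul]
    rcases all l with rfl | rfl | rfl
    · rw [if_pos rfl, mul_one, sub_self]
    · exact (hl rfl).elim
    · rw [if_neg ik.symm, mul_zero, sub_zero, (B.Q {l}).dg_pull hT rfl hb]
  exact key th (by omega) yj (B.Q {k}).sub hq cl.1 (B.cls _).1 (B.cls _).1
    (fun b => by
      obtain ⟨x, rfl⟩ := (B.Q {j}ᶜ).onto b
      exact ⟨_, (eq x).symm⟩) (B.Q {k}).fib (eP ▸ z P dP) (z _ (dg_cX hT _))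

end B8

theorem cm8 {T : CT} (th : Th T) {V : Mf 8} (B : Bas T V) (cl : Cls 8 V) {i j k : B.J}
    (ij : i ≠ j) (ik : i ≠ k) (jk : j ≠ k) (all : ∀ l, l = i ∨ l = j ∨ l = k)
    (hm : 0 < (B.F k).m) (dk : (B.Q {k}).d = 3) (yi : (B.Q {i}ᶜ).y = 3) (yj : (B.Q {j}ᶜ).y = 3) :
    Cm0 (nsm (B.F k)) (B.Q {k}).d (B.Q {k}).y (tr T (B.Q {k}).sub.hol) := by
  have hT := th.ok
  obtain ⟨cV, kV⟩ := (fano_iff hT V).1 cl.1
  have fa := fax T hT B.F k (B.Q {k}) cV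
  have dim := (B.Q {k}).dim
  have hm' : (B.F k).m = 1 ∨ (B.F k).m = 2 := by
    have h1 := rd _ _ _ _ _ _ fa
    omega
  refine K336H.cm_cast ?_ dk
  rcases hm' with hm | hm
  swap
  · exact cm3 _ _ _ _ (K336H.fa_cast fa hm dk rfl)
  intro l z hl hz
  refine cmq _ _ _ _ (K336H.fa_cast fa hm dk rfl) l z hl hz ?_
  obtain ⟨b, rfl⟩ := ((B.Q {k}).s4 z).1 (by rintro _ rfl; exact hz.2)
  have dP : T.Dg _ 1 (T.push (B.Q {k}).π (td4 (tr T (B.Q {k}).sub.hol))) := by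
    rw [CT.Dg, hT.pu.deg (B.Q {k}).sub 3 (by omega), K336H.dg_td hT fa.dt]
  have h1 := B8.half th B cl ij ik jk all dk yj rfl dP
  have h2 := B8.half th B cl ij.symm jk ik (fun l => by have := all l; tauto) dk yi rfl dP
  have h3 : T.push (B.Q {k}).π (td4 (tr T (B.Q {k}).sub.hol)) = 0 := by
    refine pull_inj hT (B.Q {k}).sub dim (B.Q {k}).onto ((B.Q _).conn cV)
      ((hT.po.kah V).2 ⟨_, kV⟩) ?_
    rw [B.span _ (dg_pull hT _ dP)]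
    refine Finset.sum_eq_zero fun l _ => ?_
    rcases all l with rfl | rfl | rfl
    · rw [h1, zero_smul]
    · rw [h2, zero_smul]
    · rw [(B.Q {l}).dg_pull hT rfl dP, zero_smul]
  show T.int V _ = 0
  rw [← hT.pu.int (B.Q {k}).sub, hT.pu.proj (B.Q {k}).sub, h3, zero_mul, map_zero]

end Vale.Agent.P280W
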