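import Vale.Agent.P280Y.Top

/-!
# P280W: the Cartan numbers of the families which are bundles of projective lines
-/

open scoped Manifold ContDiff Topology Matrix
open Set Filter
open Vale.Agent.P272.K Vale.Agent.P285.H281.FD Vale.Agent.P281Z
open Vale.Agent.P277.HD (pull)
open Vale.Agent.P280Z Vale.Agent.P280Z.Rh Vale.Agent.P280Z.Po
open Vale.Agent.P280Z.Gp (Gen)

noncomputable section

namespace Vale.Agent.P280W

variable {T : CT} {n : ℕ} {V : Mf n}

/-- the Cartan numbers -/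
abbrev Ca (B : Bas T V) (i j : B.J) : ℝ := (B.F j).dg (T.c1 V (La B i))

/-- the degree, on all classes -/
abbrev gd (B : Bas T V) (i : B.J) : T.H V →ₗ[ℝ] ℝ := (B.F i).dg.comp (T.pr V 1)

/-- the base of the fibration `i` has a globally generated tangent bundle -/
abbrev Gb (B : Bas T V) (i : B.J) : Prop := Gen (B.Q {i}).y (B.Q {i}).Y.X

theorem rt (hT : T.OK) (B : Bas T V) {i : B.J} (hi : (B.F i).m = 0) :
    Rt (B.F i) (T.c1 V (La B i)) := by
  rw [La, c1_lam hT (B.Q {i}).sub.hol]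
  exact (lam T hT B i hi).2.1

theorem sg (hT : T.OK) (B : Bas T V) {i j : B.J} (hi : (B.F i).m = 0) (hj : j ≠ i) :
    Ca B i i = 2 ∧ Ca B i j ≤ 0 :=
  sgn T hT _ _ _ (B.H i) hi (rt hT B hi) (B.nn i) (by rw [B.dual, if_pos rfl])
    (by rw [B.dual, if_neg hj])

theorem main (hT : T.OK) (hV : Cls n V) (B : Bas T V) {i j : B.J} (k : ℕ) (hi : (B.F i).m = 0)
    (hj : j ≠ i) (ha : Ca B i j = -((k : ℝ) + 1)) (hk : k = 0 ∨ 0 < (B.F j).m)
    (g : Gb B i) : Gen n V.X := by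
  obtain ⟨hc, hk'⟩ := (fano_iff hT V).1 hV.1
  have kV : V.Kah := (hT.po.kah V).2 ⟨_, hk'⟩
  have hn := (lam T hT B i hi).1
  have hs := (B.Q {i}).sub
  have neg : (B.F j).dg (T.c1 V (La B i)) < 0 := by
    rw [show (B.F j).dg (T.c1 V (La B i)) = _ from ha]
    exact neg_neg_of_pos k.cast_add_one_pos
  obtain ⟨v, hv⟩ := rlb V _ _ hs hn
  rcases vert V _ _ hs hn inferInstance (lift T hT V _ _ _ v hn hs ⟨_, lb_inv (lb_can V), hV.1.2⟩ hv
    (xt T hT (B.F j) _ k ha hk)) g with h | h | ⟨O, ι, L, s, h1, h2, h3⟩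
  · exact h
  · exact absurd (nq T hT (B.F j) _ hV.2 (lb_La B i) h) neg.not_ge
  · obtain ⟨k1, k2, k3⟩ := nrm T hT V _ O _ hs.hol L s ι kV h1 h2 h3
    rw [← c1_lam hT hs.hol] at k1
    exact (alg T hT (B.F i) (B.F j) _ _ (rt hT B hi) (hT.c1.deg V L) neg k1 k2 (k3 _) (k3 _)
      fun h => ⟨_, rt hT B h, (sg hT B h hj.symm).2⟩).elim

theorem nat (hT : T.OK) (B : Bas T V) {i j : B.J} (h : Ca B i j < 0) :
    ∃ k : ℕ, Ca B i j = -((k : ℝ) + 1) := by
  obtain ⟨z, hz⟩ := dgz_of Rh.int_ T hT (B.F j) _ (lb_La B i)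
  unfold Ca at h ⊢
  rw [hz] at h ⊢
  obtain ⟨k, rfl⟩ := Int.eq_negSucc_of_lt_zero (Int.cast_lt_zero.1 h)
  exact ⟨k, by rw [Int.cast_negSucc, Nat.cast_succ]⟩

theorem split (hT : T.OK) (hV : Cls n V) (B : Bas T V) (hJ : Nontrivial B.J) {i : B.J}
    (hi : (B.F i).m = 0) (h0 : ∀ j, j ≠ i → Ca B i j = 0) (g : Gb B i) :
    Gen n V.X := by
  obtain ⟨hc, hk⟩ := (fano_iff hT V).1 hV.1
  have kV : V.Kah := (hT.po.kah V).2 ⟨_, hk⟩
  obtain ⟨hn, -, hp⟩ := lam T hT B i hi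
  obtain ⟨j, hj⟩ := exists_ne i
  have e : T.c1 V (La B i) = (2 : ℝ) • B.H i := by
    rw [B.span _ (hT.c1.deg V _), Finset.sum_eq_single i
      (fun j _ h => by rw [show (B.F j).dg _ = _ from h0 j h, zero_smul])
      (fun h => (h (Finset.mem_univ i)).elim), show (B.F i).dg _ = _ from (sg hT B hi hj).1]
  obtain ⟨d1, n1⟩ := dim1 T hT B i hJ hn (e ▸ rt hT B hi)
  obtain ⟨v, hv⟩ := rlb V _ _ (B.Q {i}).sub hn
  obtain ⟨w, -, hw⟩ := B.pH i
  obtain ⟨w', hw'⟩ := (hT.po.kah _).1 (B.Q {i}).kah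
  exact etg V _ _ (B.Q {i}).π (B.Q {i}ᶜ).π (by omega) (B.Q {i}).sub.hol (B.Q {i}ᶜ).sub.hol
    (trv T hT V _ _ _ _ (B.Q {i}).sub.hol (B.Q {i}ᶜ).sub _ v w' ((2 : ℝ) • w) w hn d1 hc kV
      (B.Q {i}ᶜ).fib hv (hT.po.deg hw') (by rw [map_smul, ← hw]; exact e)
      (by rw [← hw]; exact (hp w' hw').ne')) g (P280Y.ih7 _ (by omega) _ (B.cls _))

theorem gl (hT : T.OK) (B : Bas T V) (i j : B.J) : gd B j (T.c1 V (La B i)) = Ca B i j := by
  rw [LinearMap.comp_apply, hT.c1.deg V]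

theorem gH (hT : T.OK) (B : Bas T V) (i j : B.J) : gd B j (B.H i) = if j = i then 1 else 0 := by
  rw [LinearMap.comp_apply, hT.po.deg (B.nn i), B.dual]

theorem rf (hT : T.OK) (hV : Cls n V) (f f' : T.H V →ₗ[ℝ] ℝ) (l l' h : T.H V) (dh : T.Dg V 1 h)
    (h1 : f l = 2) (h2 : f' l' = 2)
    (h3 : ∀ x, T.int V (T.pr V 1 (x - f x • l) ^ n) = -T.int V (T.pr V 1 x ^ n))
    (h4 : ∀ x, T.int V (T.pr V 1 (x - f' x • l') ^ n) = -T.int V (T.pr V 1 x ^ n))
    (h5 : f h = 0) (h6 : f' h = 1) (h7 : f' l < 0) (h8 : f l' ≤ 0) :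
    f l' < 0 ∧ f' l * f l' < 4 := by
  obtain ⟨hc, hk⟩ := (fano_iff hT V).1 hV.1
  obtain ⟨x⟩ := hc.toNonempty
  obtain ⟨k1, k2⟩ := rfb (T.H V) (fun x => T.int V (T.pr V 1 x ^ n)) f f' l l' h (cX T V)
    (-f' l) (-f l')
    (by simpa only [map_add, map_smul, show T.pr V 1 _ = _ from dh,
      show T.pr V 1 _ = _ from dg_cX hT V] using poly (cX T V) h)
    h1 h2 (neg_neg _).symm (neg_neg _).symm h3 h4 h5 h6
    (by rw [dg_cX hT V]; exact (Ma.kc_vol hT hk x).ne') (neg_pos.2 h7) (neg_nonneg.2 h8)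
  exact ⟨neg_pos.1 k1, by rwa [neg_mul_neg] at k2⟩

theorem an (hT : T.OK) (B : Bas T V) {i : B.J} (hi : (B.F i).m = 0) (x : T.H V) :
    T.int V (T.pr V 1 (x - gd B i x • T.c1 V (La B i)) ^ n) = -T.int V (T.pr V 1 x ^ n) :=
  two (P := fun x => T.int V (T.pr V 1 x ^ n)) hT rfa _ hi (rt hT B hi) (fun _ => rfl) x

theorem car (hT : T.OK) (hV : Cls n V) (B : Bas T V) {i j : B.J} (hi : (B.F i).m = 0)
    (hm : (B.F j).m = 0) (hj : j ≠ i) (h : Ca B i j < 0) :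
    Ca B j i < 0 ∧ Ca B i j * Ca B j i < 4 := by
  have := rf hT hV (gd B i) (gd B j) _ _ (B.H j) (hT.po.deg (B.nn j))
    ((gl hT B i i).trans (sg hT B hi hj).1) ((gl hT B j j).trans (sg hT B hm hj.symm).1)
    (an hT B hi) (an hT B hm) (by rw [gH hT, if_neg hj.symm]) (by rw [gH hT, if_pos rfl])
    (by rwa [gl hT]) (by rw [gl hT]; exact (sg hT B hm hj.symm).2)
  rwa [gl hT, gl hT] at this

theorem pair (hT : T.OK) (hV : Cls n V) (B : Bas T V) {i j : B.J} (hi : (B.F i).m = 0)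
    (hj : j ≠ i) (h : Ca B i j < 0) (g : Gb B i)
    (g' : (B.F j).m = 0 → Ca B i j ≤ -2 → Gb B j) : Gen n V.X := by
  obtain ⟨k, ha⟩ := nat hT B h
  rcases Nat.eq_zero_or_pos (B.F j).m with hm | hm
  · obtain ⟨k1, k2⟩ := car hT hV B hi hm hj h
    obtain ⟨k', ha'⟩ := nat hT B k1
    rw [ha, ha', neg_mul_neg] at k2
    have k3 : (k + 1) * (k' + 1) < 4 := by exact_mod_cast k2
    rcases Nat.eq_zero_or_pos k with h | h
    · exact main hT hV B k hi hj ha (Or.inl h) g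
    · refine main hT hV B k' hm hj.symm ha' (Or.inl (by nlinarith)) (g' hm ?_)
      have : (1 : ℝ) ≤ k := by exact_mod_cast h
      linarith
  · exact main hT hV B k hi hj ha (Or.inr hm) g

theorem conj {W : Type} [AddCommGroup W] [Module ℝ W] {P : W → ℝ} {f f' : W →ₗ[ℝ] ℝ} {l l' : W}
    (h2 : f' l' = 2) (h3 : ∀ x, P (x - f x • l) = -P x) (h4 : ∀ x, P (x - f' x • l') = -P x)
    (x : W) : P (x - (f - f l' • f') x • (l - f' l • l')) = -P x := by
  have e : x - (f - f l' • f') x • (l - f' l • l') =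
      ((x - f' x • l') - f (x - f' x • l') • l) -
        f' ((x - f' x • l') - f (x - f' x • l') • l) • l' := by
    simp only [map_sub, map_smul, LinearMap.sub_apply, LinearMap.smul_apply, smul_eq_mul, h2]
    module
  rw [e, h4, h3, h4, neg_neg]

/-- two multiple bonds do not meet -/
theorem tb (hT : T.OK) (hV : Cls n V) (B : Bas T V) {i j k : B.J} (hi : (B.F i).m = 0)
    (hm : (B.F j).m = 0) (hk : (B.F k).m = 0) (hj : j ≠ i) (hj' : j ≠ k) (hik : i ≠ k)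
    (h1 : Ca B i j ≤ -2) (h2 : Ca B k j ≤ -2) : False := by
  obtain ⟨a, ha⟩ := nat hT B (car hT hV B hi hm hj (by linarith)).1
  obtain ⟨b, hb⟩ := nat hT B (car hT hV B hk hm hj' (by linarith)).1
  have a0 : (0 : ℝ) ≤ a := a.cast_nonneg
  have b0 : (0 : ℝ) ≤ b := b.cast_nonneg
  have s1 := sg hT B hi hik.symm
  have s2 := sg hT B hk hik
  have s3 := (sg hT B hm hj.symm).1
  have e1 : gd B k (T.c1 V (La B i) - gd B j (T.c1 V (La B i)) • T.c1 V (La B j)) ≤ -2 := by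
    rw [map_sub, map_smul, gl hT, gl hT, gl hT, smul_eq_mul, hb]
    nlinarith [s1.2]
  have e2 : (gd B i - gd B i (T.c1 V (La B j)) • gd B j) (T.c1 V (La B k)) ≤ -2 := by
    rw [LinearMap.sub_apply, LinearMap.smul_apply, gl hT, gl hT, gl hT, smul_eq_mul, ha]
    nlinarith [s2.2]
  have := (rf hT hV (gd B i - gd B i (T.c1 V (La B j)) • gd B j) (gd B k)
    (T.c1 V (La B i) - gd B j (T.c1 V (La B i)) • T.c1 V (La B j)) _ (B.H k) (hT.po.deg (B.nn k))
    (by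
      simp only [map_sub, map_smul, LinearMap.sub_apply, LinearMap.smul_apply, smul_eq_mul, gl hT,
        s1.1, s3]
      ring)
    ((gl hT B k k).trans s2.1)
    (conj (P := fun x => T.int V (T.pr V 1 x ^ n)) ((gl hT B j j).trans s3) (an hT B hi)
      (an hT B hm)) (an hT B hk)
    (by rw [LinearMap.sub_apply, LinearMap.smul_apply, gH hT, gH hT, if_neg hik, if_neg hj',
      smul_zero, sub_zero])
    (by rw [gH hT, if_pos rfl]) (by linarith) (by linarith)).2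
  nlinarith

theorem sq_sum {R α : Type} [CommRing R] (I : Ideal R) (x : α → R) (s : Finset α)
    (h : ∀ a ∈ s, x a ^ 2 ∈ I) : (∑ a ∈ s, x a) ^ (s.card + 1) ∈ I := by
  classical
  induction s using Finset.induction_on with
  | empty => simp
  | insert a s ha ih =>
    rw [Finset.sum_insert ha, Finset.card_insert_of_notMem ha]
    exact I.add_pow_mem_of_pow_mem_of_le (h a (Finset.mem_insert_self a s))
      (ih fun b hb => h b (Finset.mem_insert_of_mem hb)) (by omega)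

/-- orthogonal families -/
theorem ort (hT : T.OK) (hc : ConnectedSpace V.X) (B : Bas T V) (S : Finset B.J)
    (hm : ∀ i ∈ S, (B.F i).m = 0 ∧ Ca B i i = 2) (h0 : ∀ i ∈ S, ∀ j ∈ S, j ≠ i → Ca B i j = 0) :
    (B.Q (S : Set B.J)).d ≤ S.card := by
  obtain ⟨⟨w, hw, e⟩, hp⟩ := Pr.posj T hT B hc (S : Set B.J)
  by_contra hd
  have e1 : Pr.hS B (S : Set B.J) = ∑ i ∈ S, B.H i := by
    unfold Pr.hS
    refine (Finset.sum_subset S.subset_univ ?_).symm.trans (Finset.sum_congr rfl ?_)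
    exacts [fun j _ hj => if_neg hj, fun j hj => if_pos hj]
  let I := Ideal.torsionOf (T.H V) (T.H V) (Pr.hS B (S : Set B.J)ᶜ ^ (B.Q (S : Set B.J)).y)
  have kI : ∀ k b, T.Dg _ (k + 1) b → T.pull (B.Q (S : Set B.J)).sub.hol b ∈ I := fun k b hb => by
    rw [Ideal.mem_torsionOf_iff, smul_eq_mul, e, ← map_pow, ← map_mul,
      ← hT.rg.dg_mul _ _ _ _ _ hb (Ma.dg_pow hT (hT.po.deg hw) _), hT.rg.pr_zero _ _ _ (by omega),
      map_zero]
  have h1 := sq_sum I B.H S fun i hi => by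
    have dl := hT.c1.deg V (La B i)
    obtain ⟨b, hb, eb⟩ := (B.Q (S : Set B.J)).ex_dg hT (Ma.dg_pow hT dl 2) fun j hj => by
      by_cases k : j = i
      · subst k
        have h1 : T.dem (B.F j).sp.hol (T.c1 (B.F j).U (B.F j).Tb * T.c1 (B.F j).U (B.F j).Tb) =
          0 := Al.LeiH.tt (B.F j).ns
        rw [← (rt hT B (hm j hi).1).2, ← map_mul, ← sq] at h1
        exact h1
      · obtain ⟨c, -, ec⟩ := (B.Q {j}).ex1 hT dl fun j' hj' => by
          rw [show j' = j from hj']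
          exact h0 i hi j hj k
        exact ((B.Q {j}).s4 _).2 ⟨c ^ 2, by rw [map_pow, ← ec]⟩ j rfl
    obtain ⟨c, hc', ec⟩ := (B.Q (S : Set B.J)).ex1 hT
      (a := B.H i - (1 / 2 : ℝ) • T.c1 V (La B i))
      (by rw [CT.Dg, map_sub, map_smul, hT.po.deg (B.nn i), dl]) fun j hj => by
        rw [map_sub, map_smul, B.dual, smul_eq_mul]
        by_cases k : j = i
        · subst k
          rw [if_pos rfl, show (B.F j).dg _ = _ from (hm j hi).2]
          norm_num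
        · rw [if_neg k, show (B.F j).dg _ = _ from h0 i hi j hj k]
          norm_num
    have e2 : B.H i ^ 2 = (1 / 2 : ℝ) • (1 / 2 : ℝ) • T.c1 V (La B i) ^ 2 +
        (B.H i + (1 / 2 : ℝ) • T.c1 V (La B i)) * (B.H i - (1 / 2 : ℝ) • T.c1 V (La B i)) := by
      simp only [Algebra.smul_def]
      ring
    rw [e2, eb, ec, Algebra.smul_def, Algebra.smul_def]
    exact add_mem (I.mul_mem_left _ (I.mul_mem_left _ (kI 1 b hb))) (I.mul_mem_left _ (kI 0 c hc'))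
  have h2 := I.pow_mem_of_pow_mem h1 (Nat.succ_le_of_lt (not_le.1 hd))
  rw [Ideal.mem_torsionOf_iff, smul_eq_mul, ← e1] at h2
  rw [h2, map_zero] at hp
  exact lt_irrefl _ hp

theorem core (hT : T.OK) (hV : Cls n V) (B : Bas T V) (hJ : Nontrivial B.J) (S : Finset B.J)
    {i : B.J} (hi : i ∈ S) (hm : ∀ j ∈ S, (B.F j).m = 0) (g : ∀ j ∈ S, Gb B j)
    (g' : ∀ S' : Finset B.J, S'.card = S.card → (B.Q (S' : Set B.J)).d ≤ S'.card → ∀ j ∈ S',
      Gb B j) : Gen n V.X := by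
  by_cases h1 : ∃ k ∈ S, ∃ j ∈ S, j ≠ k ∧ Ca B k j < 0
  · obtain ⟨k, hk, j, hj, e, h⟩ := h1
    exact pair hT hV B (hm k hk) e h (g k hk) fun _ _ => g j hj
  have h2 : ∀ k ∈ S, ∀ j ∈ S, j ≠ k → Ca B k j = 0 := fun k hk j hj e =>
    (sg hT B (hm k hk) e).2.eq_of_not_lt fun h => h1 ⟨k, hk, j, hj, e, h⟩
  by_cases h0 : ∀ j, j ≠ i → Ca B i j = 0
  · exact split hT hV B hJ (hm i hi) h0 (g i hi)
  push Not at h0
  obtain ⟨j, hj, h0⟩ := h0
  have neg := lt_of_le_of_ne (sg hT B (hm i hi) hj).2 h0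
  have jS : j ∉ S := fun e => h0 (h2 i hi j e hj)
  by_cases h3 : (B.F j).m = 0 ∧ Ca B i j ≤ -2
  swap
  · exact pair hT hV B (hm i hi) hj neg (g i hi) fun a b => (h3 ⟨a, b⟩).elim
  by_cases h4 : ∃ k ∈ S, k ≠ i ∧ Ca B k j < 0
  · obtain ⟨k, hk, e, h⟩ := h4
    have jk : j ≠ k := fun c => jS (c ▸ hk)
    exact pair hT hV B (hm k hk) jk h (g k hk) fun _ b =>
      (tb hT hV B (hm i hi) h3.1 (hm k hk) hj jk e.symm h3.2 b).elim
  refine pair hT hV B (hm i hi) hj neg (g i hi) fun _ _ => g' (insert j (S.erase i)) ?_ ?_ j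
    (Finset.mem_insert_self _ _)
  · rw [Finset.card_insert_of_notMem fun c => jS (Finset.mem_of_mem_erase c),
      Finset.card_erase_add_one hi]
  have h5 : ∀ k ∈ S.erase i, Ca B k j = 0 := fun k hk =>
    (sg hT B (hm k (Finset.mem_of_mem_erase hk))
      fun c : j = k => jS (c ▸ Finset.mem_of_mem_erase hk)).2.eq_of_not_lt fun h =>
        h4 ⟨k, Finset.mem_of_mem_erase hk, Finset.ne_of_mem_erase hk, h⟩
  refine ort hT hV.1.1 B _ (fun k hk => ?_) fun k hk l hl e => ?_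
  · obtain ⟨l, hl⟩ := exists_ne k
    have : (B.F k).m = 0 := by
      rcases Finset.mem_insert.1 hk with rfl | hk
      exacts [h3.1, hm k (Finset.mem_of_mem_erase hk)]
    exact ⟨this, (sg hT B this hl).1⟩
  rcases Finset.mem_insert.1 hk with rfl | hk' <;> rcases Finset.mem_insert.1 hl with rfl | hl'
  · exact (e rfl).elim
  · refine (sg hT B h3.1 e).2.eq_of_not_lt fun h => ?_
    exact (car hT hV B h3.1 (hm l (Finset.mem_of_mem_erase hl')) e h).1.ne (h5 l hl')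
  · exact h5 k hk'
  · exact h2 k (Finset.mem_of_mem_erase hk') l (Finset.mem_of_mem_erase hl') e

end Vale.Agent.P280W
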