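import Vale.Agent.P280Z.Nf

/-!
# P280W: towers of fibrations in curves
-/

open scoped Manifold ContDiff
open Vale.Agent.P272.K Vale.Agent.P285.H281.FD Vale.Agent.P281Z

noncomputable section

namespace Vale.Agent.P280W

/-- `Tw n X x`: there is a chain of holomorphic maps from `X` down to a manifold of dimension at
most six; each target has a positive line bundle, the dimension drops by one at each step, and
each map is a submersion at the image of `x` -/
inductive Tw : (n : ℕ) → (X : Mf n) → X.X → Prop
  | base {n : ℕ} (X : Mf n) (x : X.X) : n ≤ 6 → Tw n X x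
  | step {n m : ℕ} (X : Mf n) (Y : Mf m) (π : X.X → Y.X) (L : Bd Y.X) (x : X.X) : n = m + 1 →
      IsLB m L → Pos m L → HolM n m π → Sbm n m π x → Tw m Y (π x) → Tw n X x

end Vale.Agent.P280W
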