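import Vale.Agent.P280Z.Nf

/-!
# P280W: a lower bound for the Picard number
-/

open scoped Manifold ContDiff
open Vale.Agent.P272.K Vale.Agent.P285.H281.FD Vale.Agent.P281Z
open Vale.Agent.P277 (Bd.inv)

noncomputable section

namespace Vale.Agent.P280W

/-- the pull back by `f` of the line bundle `⊗ a, L a ^ z a` -/
def cmb {X C : Type} {r : ℕ} (f : C → X) (L : Fin r → Bd X) (z : Fin r → ℤ) : Bd C where
  ι := ∀ a, (L a).ι
  U i := {c | ∀ a, f c ∈ (L a).U (i a)}
  g i j c := ∏ a, (L a).g (i a) (j a) (f c) ^ z a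

/-- the Picard number is at least `r`: there are `r` line bundles such that every nonzero integral
combination has a positive or a negative degree on some curve -/
def Rho (n : ℕ) (X : Type) [TopologicalSpace X] [ChartedSpace (Cm n) X] (r : ℕ) : Prop :=
  ∃ L : Fin r → Bd X, (∀ a, IsLB n (L a)) ∧ ∀ z : Fin r → ℤ, z ≠ 0 →
    ∃ (C : Mf 1) (f : C.X → X), ConnectedSpace C.X ∧ HolM 1 n f ∧
      (Pos 1 (cmb f L z) ∨ Pos 1 (Bd.inv (cmb f L z)))

end Vale.Agent.P280W
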