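import Vale.Agent.P280W.Rho

/-!
# P280W: the list of the cases without bundles of projective lines
-/

open scoped Manifold ContDiff Topology Matrix
open Set Filter
open Vale.Agent.P272.K Vale.Agent.P285.H281.FD Vale.Agent.P281Z
open Vale.Agent.P280Z Vale.Agent.P280Z.Rh Vale.Agent.P280Z.Pr
open Vale.Agent.P280Z.Gp (Gen)

noncomputable section

namespace Vale.Agent.P280W

/-- the top Segre number of the tangent bundle is nonnegative -/
def SEG : Prop := ∀ T : CT, Th T → ∀ {n : ℕ} (V : Mf n), Cls n V → ∀ h : ℕ → T.H V, h 0 = 1 →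
  (∀ k : ℕ, ((k + 1 : ℕ) : ℝ) • h (k + 1) =
    ∑ i ∈ Finset.range (k + 1), T.ps V (VB.tan n V.X) (i + 1) * h (k - i)) → 0 ≤ T.int V (h n)

/-- case `(2, 2; 7)` -/
def K227 : Prop := ∀ (T : CT) (V : Mf 7) (B : Bas T V) i j, Two B i j → (B.Q {i}).d = 2 →
  (B.Q {j}).d = 2 → False

/-- case `(2, 3; 7)` -/
def K237 : Prop := ∀ (T : CT) (V : Mf 7) (B : Bas T V) i j, Two B i j → (B.Q {i}).d = 3 →
  (B.Q {j}).d = 2 → False

/-- case `(2, 4; 7)` -/
def K247 : Prop := ∀ (T : CT) (V : Mf 7) (B : Bas T V) i j, Two B i j → (B.Q {i}).d = 4 →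
  (B.Q {j}).d = 2 → False

/-- case `(3, 3; 7)` -/
def K337 : Prop := ∀ (T : CT) (V : Mf 7) (B : Bas T V) i j, Two B i j → (B.Q {i}).d = 3 →
  (B.Q {j}).d = 3 → Gen 7 V.X

/-- case `(3, 4; 7)` -/
def K347 : Prop := ∀ (T : CT) (V : Mf 7) (B : Bas T V) i j, Two B i j → (B.Q {i}).d = 4 →
  (B.Q {j}).d = 3 → Cm0 (nsm (B.F j)) (B.Q {j}).d (B.Q {j}).y (tr T (B.Q {j}).sub.hol)

/-- at least three families -/
def R3 : Prop := ∀ T : CT, Th T → ∀ {n : ℕ} (V : Mf n) (B : Bas T V), 7 ≤ n → Cls n V →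
  n ≤ Fintype.card B.J + 5 → 3 ≤ Fintype.card B.J → (∀ j, 0 < (B.F j).m) →
  (∀ S : Set B.J, S.Nonempty → Gen (B.Q S).y (B.Q S).Y.X) → Gen n V.X

theorem nop_of (k227 : K227) (k237 : K237) (k247 : K247) (k337 : K337) (k347 : K347) (r3 : R3) :
    NOP := by
  intro T th n V B h7 cls hn pos q
  by_cases h3 : 3 ≤ Fintype.card B.J
  · exact r3 T th V B h7 cls hn h3 pos q
  obtain rfl : n = 7 := by omega
  have hc : ConnectedSpace V.X := cls.1.1
  have d2 : ∀ j, 2 ≤ (B.Q {j}).d := fun j => by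
    have := d_pos th.ok hc B j
    have := pos j
    omega
  have two : ∀ i j, i ≠ j → (∀ k, k = i ∨ k = j) → (B.Q {j}).d ≤ (B.Q {i}).d → Gen 7 V.X := by
    intro i j ne all le
    have tw : Two B i j := ⟨th, cls, ne, all, pos⟩
    have e : ({j}ᶜ : Set B.J) = {i} := by
      ext k
      rcases all k with rfl | rfl <;> simp [ne, ne.symm]
    have h1 := dimj_of posj T th.ok B hc {i} j (by simp [ne.symm])
    have h2 := (B.Q {i}).dim
    have h3 := d2 j
    by_cases h4 : (B.Q {j}).d = (B.Q {i}).y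
    · refine prj th B cls q ne (by rw [e, h4]) ?_
      by_cases h5 : (B.Q {j}).d = 2
      · exact (cm_two th B cls (pos j) h5).2.2
      · exact k347 T V B i j tw (by omega) (by omega)
    by_cases h5 : (B.Q {j}).d = 2
    swap
    · exact k337 T V B i j tw (by omega) (by omega)
    by_cases h6 : (B.Q {i}).d = 2
    · exact (k227 T V B i j tw h6 h5).elim
    by_cases h7 : (B.Q {i}).d = 3
    · exact (k237 T V B i j tw h7 h5).elim
    · exact (k247 T V B i j tw (by omega) h5).elim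
  obtain ⟨i, j, ne, e⟩ := Finset.card_eq_two.1
    (show (Finset.univ : Finset B.J).card = 2 by rw [Finset.card_univ]; omega)
  have all : ∀ k, k = i ∨ k = j := fun k => by simpa [e] using (e ▸ Finset.mem_univ k :)
  rcases le_total (B.Q {j}).d (B.Q {i}).d with h | h
  · exact two i j ne all h
  · exact two j i ne.symm (fun k => (all k).symm) h

end Vale.Agent.P280W
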