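import Vale.Agent.P280W.Top
import Vale.Agent.P280W.Defs2

/-!
# P280W: large Picard number, reduction to the case without bundles of projective lines
-/

open scoped Manifold ContDiff Topology Matrix
open Set Filter
open Vale.Agent.P272.K Vale.Agent.P285.H281.FD Vale.Agent.P281Z
open Vale.Agent.P280Z Vale.Agent.P280Z.Rh Vale.Agent.P280Z.Cv Vale.Agent.P280Z.Pr
open Vale.Agent.P280Z.Gp (Gen)

noncomputable section

namespace Vale.Agent.P280W

/-- the case where no family is a bundle of projective lines -/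
def NOP : Prop := ∀ T : CT, Th T → ∀ {n : ℕ} (V : Mf n) (B : Bas T V), 7 ≤ n → Cls n V →
  n ≤ Fintype.card B.J + 5 → (∀ j, 0 < (B.F j).m) →
  (∀ S : Set B.J, S.Nonempty → Gen (B.Q S).y (B.Q S).Y.X) → Gen n V.X

variable {T : CT} {n : ℕ} {V : Mf n}

/-- the family `j` splits off -/
theorem prj (th : Th T) (B : Bas T V) (cl : Cls n V)
    (q : ∀ S : Set B.J, S.Nonempty → Gen (B.Q S).y (B.Q S).Y.X) {i j : B.J} (hij : i ≠ j)
    (hd : (B.Q {j}).d = (B.Q {j}ᶜ).y)
    (cm : Cm0 (nsm (B.F j)) (B.Q {j}).d (B.Q {j}).y (tr T (B.Q {j}).sub.hol)) : Gen n V.X := by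
  have hT := th.ok
  obtain ⟨cV, kV⟩ := (fano_iff hT V).1 cl.1
  have fa := fax T hT B.F j (B.Q {j}) cV
  obtain ⟨w, hw, ew⟩ := B.pH j
  obtain ⟨⟨w0, hw0, e0⟩, pos⟩ := posj T hT B cV {j}
  have dw := hT.po.deg hw
  have x0 : B.H j ^ ((B.Q {j}).d + 1) = 0 := by
    rw [ew, ← map_pow, ← Ma.dg_pow hT dw _, hT.rg.pr_zero _ _ _ (by omega), map_zero]
  have t1 := alx _ _ _ _ _ _ fa cm _ (prj_un hT B j) x0
  have dim := (B.Q {j}).dim
  refine prod_of adjf jac Po.etg T hT (B.Q {j}).sub (B.Q {j}ᶜ).sub (by omega)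
    ((hT.po.kah V).2 ⟨_, kV⟩) ((B.Q _).conn cV) (B.Q _).fib ⟨(((B.F j).m : ℝ) + 2) • w, ?_, ?_⟩
    ⟨w0 ^ (B.Q {j}).y, w ^ (B.Q {j}).d, Ma.dg_pow hT (hT.po.deg hw0) _, ?_⟩
    (q _ ⟨j, rfl⟩) (q _ ⟨i, hij⟩)
  · rw [CT.Dg, map_smul, dw]
  · rw [t1, map_smul, ← ew]
  · rw [map_pow, map_pow, ← ew, ← e0, mul_comm, ← prj_hS B j]
    exact pos.ne'

/-- fibres of dimension two -/
theorem cm_two (th : Th T) (B : Bas T V) (cl : Cls n V) {j : B.J} (hm : 0 < (B.F j).m)
    (h : (B.Q {j}).d = 2) : (B.F j).m = 1 ∧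
    Pl (nsm (B.F j)) (B.Q {j}).y (tr T (B.Q {j}).sub.hol) ∧
    Cm0 (nsm (B.F j)) (B.Q {j}).d (B.Q {j}).y (tr T (B.Q {j}).sub.hol) := by
  have hm1 : (B.F j).m = 1 := by
    have := d_pos th.ok cl.1.1 B j
    omega
  have f := fax T th.ok B.F j (B.Q {j}) cl.1.1
  have pl := (pl2_of fax g2 (g3x_of adjf) T th V B cl j hm1 h).1
  rw [hm1, h] at f
  rw [h]
  exact ⟨hm1, pl, cm2 _ _ _ _ f pl⟩

theorem cardle (hT : T.OK) (B : Bas T V) (S : Finset B.J) (B' : Bas T (B.Q (S : Set B.J)).Y) :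
    Fintype.card B.J ≤ Fintype.card B'.J + S.card := by
  choose b hb eb using fun j : {j // j ∉ S} => (B.Q (S : Set B.J)).ex1 hT (hT.po.deg (B.nn j))
    fun k hk => (B.dual k j).trans (if_neg fun e : k = j => j.2 (e ▸ hk))
  have h : LinearIndependent ℝ fun (j : {j // j ∉ S}) (l : B'.J) => (B'.F l).dg (b j) := by
    refine Fintype.linearIndependent_iff.2 fun g hg i => ?_
    have h1 : ∑ j, g j • b j = 0 := by
      rw [B'.span (∑ j, g j • b j) (by
        rw [CT.Dg, map_sum]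
        exact Finset.sum_congr rfl fun j _ => by rw [map_smul, hb j])]
      refine Finset.sum_eq_zero fun l _ => ?_
      have := congrFun hg l
      simp only [Finset.sum_apply, Pi.smul_apply, Pi.zero_apply] at this
      simp only [map_sum, map_smul, this, zero_smul]
    have h2 := congrArg (fun a => (B.F i).dg (T.pull (B.Q (S : Set B.J)).sub.hol a)) h1
    simp only [map_sum, map_smul, map_zero, ← eb, B.dual, smul_eq_mul] at h2
    rwa [Finset.sum_eq_single i (fun j _ hj => by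
      rw [if_neg fun e => hj (Subtype.ext e).symm, mul_zero])
      (fun k => (k (Finset.mem_univ i)).elim), if_pos rfl, mul_one] at h2
  have h3 := h.fintype_card_le_finrank
  rw [Module.finrank_fintype_fun_eq_card, Fintype.card_subtype_compl, Fintype.card_coe] at h3
  omega

theorem rho_le (hT : T.OK) (B : Bas T V) {r : ℕ} (h : Rho n V.X r) : r ≤ Fintype.card B.J := by
  obtain ⟨L, hL, h⟩ := h
  choose M hM using fun j a => Po.dgz_of Rh.int_ T hT (B.F j) (L a) (hL a)
  have h1 : Function.Injective (Matrix.of M).mulVecLin := by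
    rw [injective_iff_map_eq_zero]
    intro z hz
    by_contra k
    obtain ⟨C, f, hc, hf, k⟩ := h z k
    have lb := P281Z.lb_lin hL z
    have h2 : T.c1 V (P277Z.Slc.lin L z) = 0 := by
      rw [B.span _ (hT.c1.deg V _)]
      refine Finset.sum_eq_zero fun j _ => ?_
      have : ((∑ a, M j a * z a : ℤ) : ℝ) = 0 := by exact_mod_cast congrFun hz j
      rw [hT.c1.lin V L z hL, map_sum, Finset.sum_congr rfl fun a _ => by
        rw [map_smul, hM, smul_eq_mul, mul_comm, ← Int.cast_mul], ← Int.cast_sum, this, zero_smul]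
    have h5 : T.c1 C (P277.HD.pull f (P277Z.Slc.lin L z)) = 0 := by
      rw [hT.c1.pull hf _ lb, h2, map_zero]
    have h6 : ¬ T.Kc C 0 := fun e => by
      have := Ma.kc_vol hT e (Classical.arbitrary _)
      rw [pow_one, map_zero] at this
      exact lt_irrefl _ this
    rcases k with e | e
    · exact h6 (h5 ▸ hT.c1.pos C _ (hf.lb lb) e)
    · have h7 := hT.c1.pos C _ (Rh.lb_inv (hf.lb lb)) e
      rw [Rh.c1_inv hT (hf.lb lb), h5, neg_zero] at h7
      exact h6 h7
  have h3 := LinearMap.finrank_le_finrank_of_injective h1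
  rwa [Module.finrank_fintype_fun_eq_card, Module.finrank_fintype_fun_eq_card,
    Fintype.card_fin] at h3

theorem gen_rho (h : NOP) (th : Th T) (n : ℕ) : ∀ V : Mf n, Cls n V →
    (∀ B : Bas T V, n ≤ Fintype.card B.J + 5) → Gen n V.X := by
  induction n using Nat.strong_induction_on with
  | _ n ih =>
    intro V hV hr
    by_cases h7 : n < 7
    · exact P280Y.ih7 n h7 V hV
    obtain ⟨B⟩ := bas_of Sq.sys Mb.nsa Ma.rel nrc nbase th (by omega) hV
    have hT := th.ok
    have h5 := hr B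
    have q : ∀ S : Set B.J, S.Nonempty → Gen (B.Q S).y (B.Q S).Y.X := fun S hS => by
      obtain ⟨S, rfl⟩ := S.toFinite.exists_finset_coe
      have a1 := mono hT hV.1.1 B (Finset.empty_subset S)
      have a2 := (B.Q ((∅ : Finset B.J) : Set B.J)).dim
      have a3 := Finset.card_pos.2 (Finset.coe_nonempty.1 hS)
      rw [Finset.card_empty] at a1
      refine ih _ (by omega) _ (B.cls _) fun B' => ?_
      have := cardle hT B S B'
      omega
    by_cases k : ∃ i, (B.F i).m = 0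
    swap
    · exact h T th V B (by omega) hV h5 (fun j => Nat.pos_of_ne_zero fun e => k ⟨j, e⟩) q
    obtain ⟨i, hi⟩ := k
    by_cases h0 : ∀ j, j ≠ i → Ca B i j = 0
    · exact split hT hV B (Fintype.one_lt_card_iff_nontrivial.1 (by omega)) hi h0 (q _ ⟨i, rfl⟩)
    push Not at h0
    obtain ⟨j, hj, h0⟩ := h0
    exact pair hT hV B hi hj (lt_of_le_of_ne (sg hT B hi hj).2 h0) (q _ ⟨i, rfl⟩)
      fun _ _ => q _ ⟨j, rfl⟩

theorem rho_of (h : NOP) {n : ℕ} (V : Mf n) (hF : Fano n V.X) (hN : NefT n V.X)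
    (k : n ≤ 6 ∨ Rho n V.X (n - 5)) : Gp.RatHom n V.X := by
  have := hF.1
  refine Gp.of_pos V hF.2 ?_
  rcases k with k | k
  · exact P280Y.ih7 n (by omega) V ⟨hF, hN⟩
  · refine gen_rho h th_ct n V ⟨hF, hN⟩ fun B => ?_
    have := rho_le th_ct.ok B k
    omega

end Vale.Agent.P280W
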