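import Vale.Agent.P280W.Core
import Vale.Agent.P280W.Defs

/-!
# P280W: towers of fibrations in curves over manifolds of dimension at most six
-/

open scoped Manifold ContDiff Topology Matrix
open Set Filter
open Vale.Agent.P272.K Vale.Agent.P285.H281.FD Vale.Agent.P281Z
open Vale.Agent.P280Z Vale.Agent.P280Z.Rh Vale.Agent.P280Z.Cv
open Vale.Agent.P280Z.Gp (Gen)

noncomputable section

namespace Vale.Agent.P280W

variable {T : CT} {n : ℕ} {V : Mf n}

open Classical in
/-- the families on which the class `a` has degree zero -/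
def Zr (B : Bas T V) (a : T.H V) : Finset B.J := Finset.univ.filter fun j => (B.F j).dg a = 0

theorem mem_Zr {B : Bas T V} {a : T.H V} {j : B.J} : j ∈ Zr B a ↔ (B.F j).dg a = 0 := by
  simp [Zr]

theorem dimz (hT : T.OK) (hV : Cls n V) (B : Bas T V) {m : ℕ} {W : Mf m} {g : V.X → W.X}
    (hg : HolM n m g) {x : V.X} (hx : Sbm n m g x) {κ : T.H W} (hκ : T.Kc W κ) :
    (B.Q (Zr B (T.pull hg κ) : Set B.J)).y = m := by
  obtain ⟨hc, hk⟩ := (fano_iff hT V).1 hV.1
  have dw := Ma.dg_pull hT hg (hT.po.deg hκ)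
  obtain ⟨c, rfl⟩ := Nat.exists_eq_add_of_le hx.le
  have h1 : 0 < T.int V (T.pull hg κ ^ m * cX T V ^ c) := by
    refine hT.po.pos m c x (hT.po.pull hg hκ) hk rfl rfl ?_
    have k1 := LinearMap.finrank_range_add_finrank_ker (Df (m + c) m g x)
    rw [(LinearMap.range_eq_top (f := Df (m + c) m g x)).2
      (hx _ _ (at_ch _) (at_ch _)), finrank_top] at k1
    simp only [Module.finrank_fin_fun] at k1
    exact k1.le
  have k0 : ∀ j ∈ (Zr B (T.pull hg κ) : Set B.J), (B.F j).dg (T.pull hg κ) = 0 :=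
    fun j hj => mem_Zr.1 hj
  refine le_antisymm ?_ (not_lt.1 fun e => ?_)
  · obtain ⟨b, hb, e⟩ := (B.Q _).ex1 hT dw k0
    have h2 := Pr.PosjH.vol (B.Q _) hT hc hk (B.kcY _ b hb fun j hj => by
      rw [← e]
      exact ((B.F j).dg_nn hT (Ma.nn_pull hT hg hκ)).lt_of_ne fun k => hj (mem_Zr.2 k.symm))
    by_contra h
    rw [← e, ← map_pow, ← Ma.dg_pow hT (hT.po.deg hκ) _, hT.rg.pr_zero _ _ _ (not_le.1 h), map_zero,
      mul_zero, map_zero] at h2
    exact lt_irrefl _ h2
  · rw [(B.Q _).pow_zero' hT dw k0 e, zero_mul, map_zero] at h1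
    exact lt_irrefl _ h1

theorem chain (hT : T.OK) (hV : Cls n V) (B : Bas T V) {m : ℕ} {W : Mf m} {w : W.X}
    (h : Tw m W w) : (∃ κ, T.Kc W κ) → ∃ κ, T.Kc W κ ∧ ∀ (g : V.X → W.X) (hg : HolM n m g) x,
      g x = w → Sbm n m g x → ∃ S : Finset B.J, (B.Q (S : Set B.J)).y ≤ 6 ∧
        m + (Zr B (T.pull hg κ)).card ≤ (B.Q (S : Set B.J)).y + S.card := by
  induction h with
  | base X x h =>
    rintro ⟨κ, hκ⟩
    refine ⟨κ, hκ, fun g hg z _ hz => ⟨Zr B (T.pull hg κ), ?_, ?_⟩⟩ <;> rw [dimz hT hV B hg hz hκ]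
    exact h
  | step X Y π L x e hL hP hπ hx _ ih =>
    rintro ⟨κ, hκ⟩
    obtain ⟨κ', hκ', k⟩ := ih ⟨_, hT.c1.pos Y L hL hP⟩
    have h1 := Ma.kc_add hT hκ (Ma.nn_pull hT hπ hκ')
    refine ⟨_, h1, fun g hg z hz hs => ?_⟩
    subst hz
    have hs' := Sbm.comp (hπ.at _) (hg.at z) hx hs
    obtain ⟨S, k1, k2⟩ := k _ (hπ.comp hg) z rfl hs'
    refine ⟨S, k1, le_trans ?_ k2⟩
    have h2 : Zr B (T.pull hg (κ + T.pull hπ κ')) ⊆ Zr B (T.pull (hπ.comp hg) κ') := fun j hj => by
      have a1 := mem_Zr.1 hj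
      rw [map_add, map_add, ← hT.rg.pull_comp hg hπ (hπ.comp hg) fun _ => rfl] at a1
      have a2 := (B.F j).dg_nn hT (Ma.nn_pull hT hg hκ)
      have a3 := (B.F j).dg_nn hT (Ma.nn_pull hT (hπ.comp hg) hκ')
      exact mem_Zr.2 (by linarith)
    have h3 := Finset.card_lt_card (Finset.ssubset_iff_subset_ne.2 ⟨h2, fun c => by
      have a1 := dimz hT hV B hg hs h1
      rw [c, dimz hT hV B (hπ.comp hg) hs' hκ'] at a1
      omega⟩)
    omega

theorem d_pos (hT : T.OK) (hc : ConnectedSpace V.X) (B : Bas T V) (j : B.J) :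
    (B.F j).m + 1 ≤ (B.Q {j}).d := Pr.rd _ _ _ _ _ _ (Pr.fax T hT B.F j (B.Q {j}) hc)

theorem mono (hT : T.OK) (hc : ConnectedSpace V.X) (B : Bas T V) {R S : Finset B.J} (h : R ⊆ S) :
    (B.Q (S : Set B.J)).y + S.card ≤ (B.Q (R : Set B.J)).y + R.card := by
  rw [← Finset.union_eq_right.2 h]
  clear h
  induction S using Finset.induction_on with
  | empty => rw [Finset.union_empty]
  | insert j S _ ih =>
    rw [Finset.union_insert]
    by_cases hj : j ∈ R ∪ S
    · rwa [Finset.insert_eq_of_mem hj]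
    have h1 := Pr.dimj_of Pr.posj T hT B hc ((R ∪ S : Finset B.J) : Set B.J) j hj
    have h2 := d_pos hT hc B j
    rw [Finset.coe_insert, Finset.card_insert_of_notMem hj]
    omega

theorem down (hT : T.OK) (hc : ConnectedSpace V.X) (B : Bas T V) {S : Finset B.J}
    (h6 : (B.Q (S : Set B.J)).y ≤ 6) (hn : n ≤ (B.Q (S : Set B.J)).y + S.card) (r : ℕ) :
    ∀ R : Finset B.J, R ⊆ S → S.card = R.card + r → ∀ b, Tw _ (B.Q (R : Set B.J)).Y b := by
  induction r with
  | zero =>
    intro R h e b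
    rw [← Finset.eq_of_subset_of_card_le h e.le] at h6
    exact .base _ b h6
  | succ r ih =>
    intro R h e b
    obtain ⟨j, hj, hj'⟩ := Finset.exists_mem_notMem_of_card_lt_card (s := R) (t := S) (by omega)
    have h1 := Finset.insert_subset hj h
    have c1 := Finset.card_insert_of_notMem hj'
    have a1 := mono hT hc B h1
    have a2 := mono hT hc B (Finset.subset_insert j R)
    have a3 := mono hT hc B (Finset.empty_subset R)
    have a4 := (B.Q ((∅ : Finset B.J) : Set B.J)).dim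
    rw [Finset.card_empty] at a3
    have a5 : (B.Q (R : Set B.J)).y = (B.Q ((insert j R : Finset B.J) : Set B.J)).y + 1 := by omega
    let Q := B.Q (R : Set B.J)
    let Q' := B.Q ((insert j R : Finset B.J) : Set B.J)
    have e1 : ∀ x, Q'.π (Function.surjInv Q.onto (Q.π x)) = Q'.π x := fun x =>
      (Q'.rel _ _).2 (((Q.rel _ _).1 (Function.surjInv_eq Q.onto _)).mono
        fun _ _ ⟨i, hi, k⟩ => ⟨i, Finset.mem_insert_of_mem hi, k⟩)
    have e2 : (fun x => Q'.π (Function.surjInv Q.onto (Q.π x))) = Q'.π := funext e1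
    have hq : HolM Q.y Q'.y fun b => Q'.π (Function.surjInv Q.onto b) := fun b => by
      obtain ⟨x, rfl⟩ := Q.onto b
      exact (Q.sub.sbm x).desc (Q.sub.hol.at x) (g := fun b => Q'.π (Function.surjInv Q.onto b))
        (e2.symm ▸ Q'.sub.hol.at x)
    obtain ⟨x, rfl⟩ := Q.onto b
    exact .step _ Q'.Y _ _ _ a5 (Rh.lb_inv (lb_can _)) (B.cls _).1.2 hq
      (Sbm.of_comp (hq.at _) (Q.sub.hol.at x) (e2.symm ▸ Q'.sub.sbm x)) (ih _ h1 (by omega) _)

theorem gen (n : ℕ) : ∀ V : Mf n, Cls n V → ∀ x, Tw n V x → Gen n V.X := by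
  induction n using Nat.strong_induction_on with
  | _ n ih =>
    intro V hV x hx
    by_cases h7 : n < 7
    · exact P280Y.ih7 n h7 V hV
    obtain ⟨B⟩ := bas_of Sq.sys Mb.nsa Ma.rel nrc nbase th_ct (by omega) hV
    have hT := th_ct.ok
    obtain ⟨hc, hk⟩ := (fano_iff hT V).1 hV.1
    obtain ⟨κ, -, k⟩ := chain hT hV B hx ⟨_, hk⟩
    obtain ⟨S, k1, k2⟩ := k _ holM_id x rfl (sbm_id x)
    have a4 := (B.Q ((∅ : Finset B.J) : Set B.J)).dim
    have a3 := mono hT hc B (Finset.empty_subset S)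
    rw [Finset.card_empty] at a3
    have g' : ∀ S' : Finset B.J, S'.card = S.card → (B.Q (S' : Set B.J)).d ≤ S'.card → ∀ j ∈ S',
        (B.F j).m = 0 ∧ Gb B j := fun S' e hd j hj => by
      have b1 := (B.Q (S' : Set B.J)).dim
      have b2 := mono hT hc B (Finset.empty_subset S')
      have h1 := Finset.singleton_subset_iff.2 hj
      have b3 := mono hT hc B h1
      have b4 := down hT hc B (S := S') (by rw [Finset.card_empty] at b2; omega) (by omega)
        (S'.card - 1) {j} h1 (by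
          have := Finset.card_pos.2 ⟨j, hj⟩
          rw [Finset.card_singleton]
          omega)
      rw [Finset.coe_singleton] at b3 b4
      rw [Finset.card_singleton] at b3
      have b5 := d_pos hT hc B j
      have b6 := (B.Q {j}).dim
      exact ⟨by omega, ih _ (by omega) _ (B.cls _) _ (b4 ((B.Q {j}).π x))⟩
    have b1 := (B.Q (S : Set B.J)).dim
    have g := g' S rfl (by omega)
    obtain ⟨i, hi⟩ := Finset.card_pos.1 (show 0 < S.card by omega)
    refine core hT hV B ?_ S hi (fun j hj => (g j hj).1) (fun j hj => (g j hj).2)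
      fun S' e hd j hj => (g' S' e hd j hj).2
    by_contra c
    have := not_nontrivial_iff_subsingleton.1 c
    have c1 : S.card ≤ 1 := Finset.card_le_one_iff.2 fun _ _ => Subsingleton.elim _ _
    have c2 := (Pr.posj _ hT B hc (S : Set B.J)).2
    have c3 : Pr.hS B (S : Set B.J)ᶜ = 0 :=
      Finset.sum_eq_zero fun j _ => if_neg fun e => e (Subsingleton.elim i j ▸ hi)
    rw [c3, zero_pow (by omega), mul_zero, map_zero] at c2
    exact lt_irrefl _ c2

theorem tower {n : ℕ} (V : Mf n) (hF : Fano n V.X) (hN : NefT n V.X)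
    (h : n ≤ 6 ∨ ∃ x, Tw n V x) : Gp.RatHom n V.X := by
  have := hF.1
  refine Gp.of_pos V hF.2 ?_
  rcases h with h | ⟨x, h⟩
  · exact P280Y.ih7 n (by omega) V ⟨hF, hN⟩
  · exact gen n V ⟨hF, hN⟩ x h

end Vale.Agent.P280W
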